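import Vale.Agent.P093.Final.WithU
import Vale.Agent.P093.A5.Main
import Vale.Agent.P093.N.Main
import Vale.Agent.P093Z.Main

/-!
# P093: the Phillips-Toms conjecture for minimal homeomorphisms, as an equality

For every minimal homeomorphism `h` of an infinite compact metrizable space `X` and every crossed
product `A` of `C(X)` by `h`, `rc(A) = mdim(X, h) / 2`.
-/

open Vale.Agent.P093 TopologicalSpace

namespace Vale.Agent.Results.P093.AEquality

universe u v

/-- **The Phillips-Toms conjecture**: `rc(C(X) ⋊ ℤ) = mdim(X, h) / 2` for all minimal
homeomorphisms `h` of infinite compact metrizable spaces `X`. -/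
theorem result :
    ∀ (X : Type u) [TopologicalSpace X] [CompactSpace X] [MetrizableSpace X] [Infinite X]
      (h : X ≃ₜ X), IsMinimalHomeo h →
      ∀ (A : Type v) [CStarAlgebra A] [PartialOrder A] [StarOrderedRing A],
        IsCrossedProduct h A → radiusOfComparison A = meanDim h / 2 :=
  fun X _ _ _ _ h hmin A _ _ _ hA => le_antisymm (P093Z.rc_le hmin hA)
    (Final.final_of_static_lr A5.staticThm N.Fin.partN X h hmin A hA)

end Vale.Agent.Results.P093.AEquality
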